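import Vale.Agent.P141.H222.NumOf
import Vale.Agent.P141.H329.WinS
import Vale.Agent.P141.H74.CutBC
import Vale.Agent.P141.H736.FixBD
import Vale.Agent.P141.H652.NumR
import Vale.Agent.P141.H652.NumQ
import Vale.Agent.P141.H548.OwnE
import Vale.Agent.P141.H302.BornU
import Vale.Agent.P141.H989.CrB3

/-!
# P141, line (A), increasing part: the leaf of the pair `(Bg, Cg)`

The inequality at one `x0` from `H736.fix_BC2`, the numbers `NumBC` and the leaf `LBCg`.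
-/

namespace Vale.Agent.P141.H649

open Finset Matrix
open Vale.Agent.P075 (Ix)
open Vale.Agent.P141.PL (Pt iv ix cx mem_iv)
open Vale.Agent.P141.PL.H315 (Tri)
open Vale.Agent.P141.PL.H103 Vale.Agent.P141.H103
open Vale.Agent.P141.H48 (US ES BSl)
open Vale.Agent.P141.H305 (ClsM kapM)
open Vale.Agent.P141.H401 (StQ FibU FibP cb qB)
open Vale.Agent.P141.H677 (rt KT cP)
open Vale.Agent.P141.H408
open Vale.Agent.P141.H886
open Vale.Agent.P141.H808 (cS)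
open Vale.Agent.P141.H548 (vN oN vN_nn oN_nn TL eL dL nm_vN c1_agr nmH_zero nmH_one Agr nmD_nn
  nmE_nn wt_cls two_cls inv_one)
open Vale.Agent.P141.H302 (bN Pr pr_not pr_ch nmB_bN Wn_bN)
open Vale.Agent.P141.H652 (dB payS dB_nonneg payS_nonneg PbS PbS_off bS_capk bS_capk1 bS_capN
  bS_hB1 bS_hB2 pay_hB3 pay_hB4)
open Vale.Agent.P141.H989.CrB (fCRB mB sumU_mB TT)
open Vale.Agent.P141.H74.CutBC
open Vale.Agent.P141.H419.WFamR (Wn Dn En nmH nmD nmE nmB c1 P1)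
open Vale.Agent.P141.H912 (wS wS_nonneg wS_mono wS_zero_le)
open Vale.Agent.P141.H874 Vale.Agent.P141.H457
open Vale.Agent.P141.H170 (Win.cut Win.cut_in)

noncomputable section

open scoped Classical

set_option linter.unusedVariables false

/-- charges and kinds, time `k + j`, weights of the lags -/
def gV (j : ℕ) : NumF := fun ι _ _ p n ez F1 F2 F3 o K x s r U g u v Q1 Q2 Q3 x0 =>
  ∑ l ∈ range (K + 1), (3 / 4 : ℝ) ^ l *
    vN j l ι p n ez F1 F2 F3 o K x s r U g u v Q1 Q2 Q3 x0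

/-- energies of the time `1`, weights of the lags -/
def gO : NumF := fun ι _ _ p n ez F1 F2 F3 o K x s r U g u v Q1 Q2 Q3 x0 =>
  ∑ l ∈ range (K + 1), (3 / 4 : ℝ) ^ l *
    oN l ι p n ez F1 F2 F3 o K x s r U g u v Q1 Q2 Q3 x0

/-- births, weights of the lags -/
def gB : NumF := fun ι _ _ p n ez F1 F2 F3 o K x s r U g u v Q1 Q2 Q3 x0 =>
  ∑ l ∈ range (K + 1), (3 / 4 : ℝ) ^ l *
    bN (l + 1) ι p n ez F1 F2 F3 o K x s r U g u v Q1 Q2 Q3 x0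

/-- first half of `E` -/
def fE1 : NumF := fun ι _ _ p n ez F1 F2 F3 o K x s r U g u v Q1 Q2 Q3 x0 =>
  gV 0 ι p n ez F1 F2 F3 o K x s r U g u v Q1 Q2 Q3 x0 +
    gV 1 ι p n ez F1 F2 F3 o K x s r U g u v Q1 Q2 Q3 x0

/-- second half of `E` -/
def fE2 : NumF := fun ι _ _ p n ez F1 F2 F3 o K x s r U g u v Q1 Q2 Q3 x0 =>
  gO ι p n ez F1 F2 F3 o K x s r U g u v Q1 Q2 Q3 x0 +
    gB ι p n ez F1 F2 F3 o K x s r U g u v Q1 Q2 Q3 x0

/-- births of lag `0` and crossings -/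
def fE3 : NumF := fun ι _ _ p n ez F1 F2 F3 o K x s r U g u v Q1 Q2 Q3 x0 =>
  bN 0 ι p n ez F1 F2 F3 o K x s r U g u v Q1 Q2 Q3 x0 +
    fCRB mB ι p n ez F1 F2 F3 o K x s r U g u v Q1 Q2 Q3 x0

/-- halves -/
def fE4 : NumF := fun ι _ _ p n ez F1 F2 F3 o K x s r U g u v Q1 Q2 Q3 x0 =>
  fE1 ι p n ez F1 F2 F3 o K x s r U g u v Q1 Q2 Q3 x0 +
    fE2 ι p n ez F1 F2 F3 o K x s r U g u v Q1 Q2 Q3 x0

/-- the number `E` of the second slot -/
def fE : NumF := fun ι _ _ p n ez F1 F2 F3 o K x s r U g u v Q1 Q2 Q3 x0 =>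
  fE4 ι p n ez F1 F2 F3 o K x s r U g u v Q1 Q2 Q3 x0 +
    fE3 ι p n ez F1 F2 F3 o K x s r U g u v Q1 Q2 Q3 x0

/-- the number `EB` of the first slot -/
def fB : NumF := fun ι _ _ p n ez F1 F2 F3 o K x s r U g u v Q1 Q2 Q3 x0 =>
  dB p s r U K x u F3 Q3 x0 +
    payS (beI p r) (p.lam s r) o K (cx K x) u (fun k => H652.bS p s r U K u F3 Q3 x0 k) x0

theorem s1 {j : ℕ} (hj : j ≤ 1) : SumU 1 (gV j) := H548.sumU_v hj

theorem s2 : SumU 1 gO := H548.sumL_o.wS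

theorem s3 : SumU 1 gB := H302.sumU_b1

theorem t1 : SumU 1 fE1 := SumU.add (f1 := gV 0) (f2 := gV 1) (s1 (by norm_num)) (s1 le_rfl)

theorem t2 : SumU 1 fE2 := SumU.add (f1 := gO) (f2 := gB) s2 s3

theorem t3 : SumU 1 fE3 := SumU.add (f1 := bN 0) (f2 := fCRB mB) H302.sumU_b0 sumU_mB

theorem t4 : SumU 1 fE4 := SumU.add (f1 := fE1) (f2 := fE2) t1 t2

theorem sumE : SumU 1 fE := SumU.add (f1 := fE4) (f2 := fE3) t4 t3

theorem sumB : SumU (-1) fB := H652.EBU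

theorem bN_nn {ι : Type} [Fintype ι] [DecidableEq ι] {p : H401.Num} {s r : ℝ} (ht : 0 < p.t)
    (hs : 0 < s) (hr : 1 ≤ r) (q n : ℕ) (ez : ℝ) (F1 F2 F3 : ℕ → Pt → ℝ) (o : ℤ) (K : ℕ) (x : Pt)
    (U : Tri) (g : ℤ → ℤ → ℝ) (u v : ℤ → ℤ → ι → ℝ) (Q1 Q2 Q3 : ℕ → Pt → Prop) (x0 : ℤ) :
    0 ≤ bN q ι p n ez F1 F2 F3 o K x s r U g u v Q1 Q2 Q3 x0 := by
  unfold H302.bN
  refine sum_nonneg fun k _ => sum_nonneg fun x1 _ => sum_nonneg fun z _ => ?_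
  split_ifs
  · exact H302.eT_nn ht hs hr _ _ _ _
  · exact le_rfl

theorem crb_nn {ι : Type} [Fintype ι] [DecidableEq ι] {p : H401.Num} {s r : ℝ} (ht : 0 < p.t)
    (hs : 0 < s) (hr : 1 ≤ r) (n : ℕ) (ez : ℝ) (F1 F2 F3 : ℕ → Pt → ℝ) (o : ℤ) (K : ℕ) (x : Pt)
    (U : Tri) (g : ℤ → ℤ → ℝ) (u v : ℤ → ℤ → ι → ℝ) (Q1 Q2 Q3 : ℕ → Pt → Prop) (x0 : ℤ) :
    0 ≤ fCRB mB ι p n ez F1 F2 F3 o K x s r U g u v Q1 Q2 Q3 x0 := by
  unfold H989.CrB.fCRB
  refine sum_nonneg fun k _ => sum_nonneg fun x1 _ => sum_nonneg fun z _ => ?_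
  split_ifs
  · rw [H989.CrB.wE_eT]
    exact H302.eT_nn ht hs hr _ _ _ _
  · exact le_rfl

/-- **The inequality at one `x0`.** -/
theorem pt {ι : Type} [Fintype ι] [DecidableEq ι] (p : H401.Num) (n : ℕ) (ez : ℝ)
    (F1 F2 F3 : ℕ → Pt → ℝ) (o : ℤ) (K : ℕ) (x : Pt) (s r : ℝ) (U : Tri) (g : ℤ → ℤ → ℝ)
    (u v : ℤ → ℤ → ι → ℝ) (Q1 Q2 Q3 : ℕ → Pt → Prop) (ht : 0 < p.t) (ht1 : p.t ≤ 1)
    (he0 : 0 < p.e0) (hd1 : p.d ≤ 1) (ho : o = 1 ∨ o = -1) (hK : K ≤ n) (hs : 0 < s) (hr : 1 ≤ r)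
    {P κ' : ℝ} (hcls : ClsM K x s r P κ' U g u v) (q2 : BSl n ez p.cP F2 Q2) (hez : 0 < ez)
    (x0 : ℤ) (z : ℝ) (J : ℕ) (hz1 : gI p s r ≤ z) (hJ : (2 * cCI p s r) ^ 2 ≤ 4 ^ J * z ^ 2) :
    pBC (p.al U K) o K (cx K x) (beI p r) (p.lam s r) u (cb p s r U K u F3 Q3)
        (C1 p ez U K v F2) (tauI p s r) z x0 ≤
      2160000 * ((J : ℝ) + 1) ^ 3 *
        (√(z ^ 2 * fE ι p n ez F1 F2 F3 o K x s r U g u v Q1 Q2 Q3 x0 *
          (tauI p s r ^ 2 * fB ι p n ez F1 F2 F3 o K x s r U g u v Q1 Q2 Q3 x0)) +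
        tauI p s r ^ 2 * fE ι p n ez F1 F2 F3 o K x s r U g u v Q1 Q2 Q3 x0) := by
  have hr0 : 0 < r := by linarith
  have hl : 0 < p.lam s r := H401.Num.lam_pos (p := p) ht hs hr
  have hth : 0 < p.th s r := H401.Num.th_pos ht hs hr
  have hτ : 0 < tauI p s r := tauI_pos ht hs hr
  obtain ⟨hbe, hbi⟩ := inv_one (p := p) ht ht1 he0.le hr
  have hbe1 : beI p r ≤ 1 := H548.beI_le_one ht ht1 he0.le hr
  have hz : 0 < z := lt_of_lt_of_le (mul_pos (Real.rpow_pos_of_pos (div_pos ht hr0) _) hτ) hz1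
  have hz2 : 0 < z ^ 2 := by positivity
  set c0 : ℕ → ℤ → ℤ → ι → ℝ := cS p ez U K v F2 x0 with hc0
  set c : ℕ → ℤ → ℤ → ι → ℝ := H170.Win.cut K (cx K x).1 (cx K x).2.2 c0 with hc
  have agr : Agr p ez K x U v F2 x0 c := by
    intro k hk x1 h1 z' h2
    rw [hc, H170.Win.cut_in h1 h2, min_eq_left hk]
  set E : ℝ := fE ι p n ez F1 F2 F3 o K x s r U g u v Q1 Q2 Q3 x0 with hE
  set EB : ℝ := fB ι p n ez F1 F2 F3 o K x s r U g u v Q1 Q2 Q3 x0 with hEB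
  -- nonnegative parts
  have n1 : ∀ q, 0 ≤ vN 0 q ι p n ez F1 F2 F3 o K x s r U g u v Q1 Q2 Q3 x0 :=
    fun q => vN_nn ht hs hr 0 q
  have n2 : ∀ q, 0 ≤ vN 1 q ι p n ez F1 F2 F3 o K x s r U g u v Q1 Q2 Q3 x0 :=
    fun q => vN_nn ht hs hr 1 q
  have n3 : ∀ q, 0 ≤ oN q ι p n ez F1 F2 F3 o K x s r U g u v Q1 Q2 Q3 x0 :=
    fun q => oN_nn ht hs hr q
  have n4 : ∀ q, 0 ≤ bN q ι p n ez F1 F2 F3 o K x s r U g u v Q1 Q2 Q3 x0 :=
    fun q => bN_nn ht hs hr q n ez F1 F2 F3 o K x U g u v Q1 Q2 Q3 x0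
  have n5 : 0 ≤ fCRB mB ι p n ez F1 F2 F3 o K x s r U g u v Q1 Q2 Q3 x0 :=
    crb_nn ht hs hr n ez F1 F2 F3 o K x U g u v Q1 Q2 Q3 x0
  have w1 : 0 ≤ wS K fun q => vN 0 q ι p n ez F1 F2 F3 o K x s r U g u v Q1 Q2 Q3 x0 :=
    wS_nonneg n1
  have w2 : vN 1 0 ι p n ez F1 F2 F3 o K x s r U g u v Q1 Q2 Q3 x0 ≤
      wS K fun q => vN 1 q ι p n ez F1 F2 F3 o K x s r U g u v Q1 Q2 Q3 x0 := wS_zero_le n2
  have w3 : oN 0 ι p n ez F1 F2 F3 o K x s r U g u v Q1 Q2 Q3 x0 ≤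
      wS K fun q => oN q ι p n ez F1 F2 F3 o K x s r U g u v Q1 Q2 Q3 x0 := wS_zero_le n3
  have w4 : 0 ≤ wS K fun q => bN (q + 1) ι p n ez F1 F2 F3 o K x s r U g u v Q1 Q2 Q3 x0 :=
    wS_nonneg fun q => n4 (q + 1)
  have w2' := n2 0
  have w3' := n3 0
  have w5' := n4 0
  have eE : E = ((wS K fun q => vN 0 q ι p n ez F1 F2 F3 o K x s r U g u v Q1 Q2 Q3 x0) +
      (wS K fun q => vN 1 q ι p n ez F1 F2 F3 o K x s r U g u v Q1 Q2 Q3 x0)) +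
      ((wS K fun q => oN q ι p n ez F1 F2 F3 o K x s r U g u v Q1 Q2 Q3 x0) +
        (wS K fun q => bN (q + 1) ι p n ez F1 F2 F3 o K x s r U g u v Q1 Q2 Q3 x0)) +
      (bN 0 ι p n ez F1 F2 F3 o K x s r U g u v Q1 Q2 Q3 x0 +
        fCRB mB ι p n ez F1 F2 F3 o K x s r U g u v Q1 Q2 Q3 x0) := rfl
  have hE0 : 0 ≤ E := by rw [eE]; linarith
  have hdB : 0 ≤ dB p s r U K x u F3 Q3 x0 := dB_nonneg x x0
  have hpay : 0 ≤ payS (beI p r) (p.lam s r) o K (cx K x) u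
      (fun k => H652.bS p s r U K u F3 Q3 x0 k) x0 := payS_nonneg hbe hl _
  have eEB : EB = dB p s r U K x u F3 Q3 x0 + payS (beI p r) (p.lam s r) o K (cx K x) u
      (fun k => H652.bS p s r U K u F3 Q3 x0 k) x0 := rfl
  have hEB0 : 0 ≤ EB := by rw [eEB]; linarith
  have hT := wt_cls (p := p) (o := o) (K := K) (x := x) (u := u) (x0 := x0) ht hs hr
  have hT2 : ∀ k x1 m, ((2 : ℝ) • (1 : Matrix ι ι ℝ) - TL p s r o K x u x0 k x1 m).PosSemidef :=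
    fun k x1 m => two_cls (p := p) (o := o) (K := K) (x := x) (u := u) (x0 := x0) ht hs hr k x1 m
  -- the window
  refine (H329.WinBC.pBC_cls ht hs hr ez U o K x u v F2 F3 Q3 hτ hz x0).trans ?_
  rw [← GW_win_cut (N := K) (S := (cx K x).1) (R := (cx K x).2.2) (c := cS p ez U K v F2 x0)
    (be := beI p r) (s := z ^ 2)
    (T := fun a x1 j => H652.Th (p.lam s r) K (cx K x).2.1 (KT (p.lam s r) u x1) (o - 2) x0 x1 a j)
    (cx K x).2.1 (fun k => cP o x0 k)]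
  have key := H736.fix_BC2 (κ := ι) (be := beI p r) (T := TL p s r o K x u x0)
    (e := eL p s r o K x u x0) (d := dL p s r o K x u x0) hbe hbe1 (s := z ^ 2)
    (q := p.th s r ^ 2) (τ := 2) hz2 (by positivity) (by norm_num) le_rfl hT hT2 (N := K)
    (b := fun k => H652.bS p s r U K u F3 Q3 x0 k) (c := c)
    (Pb := PbS p s r U K u F3 Q3 x0) (Pc := Pr c0) (PbS_off x0)
    (cut_row fun k hk w m h => pr_not (N := K) k hk w m h)
    (bS_capk hth x0) (bS_capk1 hth x0) (bS_capN hth x0) (C := cCI p s r ^ 2)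
    (fun k a n' m hka haN => H74.CapBC.cut_capX (o := o) ht ht1 hd1 he0.le hs hr hez hK
      hcls.toCls q2 x0 (by omega) (by omega) (by omega) n' m)
    (fun k a n' m hka haN => H74.CapBC.cut_capX (o := o) ht ht1 hd1 he0.le hs hr hez hK
      hcls.toCls q2 x0 (by omega) (by omega) (by omega) n' m)
    (J := J) (by nlinarith) (R₁ := (cx K x).2.1) (S₁ := (cx K x).1) (T₁ := (cx K x).2.2)
    (cc := fun k => cP o x0 k) (H677.cP_pl ho x0) (E := E) (EB := EB) hE0 hEB0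
    ?_ ?_ ?_ ?_ ?_ ?_ ?_ ?_ ?_ ?_ ?_ ?_ ?_
  · refine (le_of_eq ?_ : _ ≤ _).trans (key.trans ?_)
    · rfl
    · have q1 : p.th s r ^ 2 ≤ tauI p s r ^ 2 := by
        have : tauI p s r = 2 * p.th s r := rfl
        rw [this]
        nlinarith
      have q2' : z ^ 2 * E * (p.th s r ^ 2 * EB) ≤ z ^ 2 * E * (tauI p s r ^ 2 * EB) := by
        gcongr
      have q3 := Real.sqrt_le_sqrt q2'
      have q4 : p.th s r ^ 2 * E ≤ tauI p s r ^ 2 * E := mul_le_mul_of_nonneg_right q1 hE0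
      have q5 : (0 : ℝ) ≤ ((J : ℝ) + 1) ^ 3 := by positivity
      have q6 := mul_le_mul_of_nonneg_left (add_le_add q3 q4)
        (mul_nonneg (by norm_num : (0 : ℝ) ≤ 2160000) q5)
      refine le_trans (le_of_eq ?_) q6
      ring
  · -- hB1
    refine (bS_hB1 x x0).trans ?_
    rw [eEB]
    linarith
  · -- hB2
    refine (bS_hB2 x x0).trans ?_
    rw [eEB]
    linarith
  · -- hB3
    refine (pay_hB3 hbe hl _).trans ?_
    rw [eEB]
    linarith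
  · -- hB4
    refine (pay_hB4 hbe _).trans ?_
    rw [eEB]
    linarith
  · -- hC0
    rw [nmH_one (n := n) (F1 := F1) (F3 := F3) (g := g) (Q1 := Q1) (Q2 := Q2) (Q3 := Q3) ht hs hr
      agr (Nat.zero_le K)]
    rw [eE]
    linarith
  · -- hC1
    have h1 := nm_vN (n := n) (ez := ez) (F1 := F1) (F2 := F2) (F3 := F3) (g := g) (Q1 := Q1)
      (Q2 := Q2) (Q3 := Q3) (U := U) (v := v) (o := o) (K := K) (x := x) (u := u) (x0 := x0)
      ht ht1 he0.le hs hr 1 0 (c := c1 K c) (fun k hk x1 a1 z a2 => c1_agr agr k a1 a2)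
    have h2 := mul_nonneg (zero_le_one.trans hbi) (nmD_nn (p := p) (s := s) (r := r) o K x u x0
      (c1 K c) 0)
    have h3 := mul_nonneg (zero_le_one.trans hbi) (nmE_nn ht hs hr o K x u x0 (c1 K c) 0)
    rw [eE]
    linarith
  · -- hC2
    have h1 := nm_vN (n := n) (ez := ez) (F1 := F1) (F2 := F2) (F3 := F3) (g := g) (Q1 := Q1)
      (Q2 := Q2) (Q3 := Q3) (U := U) (v := v) (o := o) (K := K) (x := x) (u := u) (x0 := x0)
      ht ht1 he0.le hs hr 1 0 (c := c1 K c) (fun k hk x1 a1 z a2 => c1_agr agr k a1 a2)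
    have h2 := mul_nonneg (zero_le_one.trans hbi) (nmD_nn (p := p) (s := s) (r := r) o K x u x0
      (c1 K c) 0)
    have h3 := mul_nonneg (zero_le_one.trans hbi) (nmE_nn ht hs hr o K x u x0 (c1 K c) 0)
    rw [eE]
    linarith
  · -- hC3
    have h1 : (∑ k ∈ Ico 0 K, ∑ x1 ∈ iv K (cx K x).1, ∑ z ∈ iv K (cx K x).2.2,
        (if ∃ w, ix (k + 1) w = cP o x0 (k + 1) - ix (k + 1) x1 - ix (k + 1) z ∧
            PbS p s r U K u F3 Q3 x0 k w (ix k x1) then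
          H736.wE (beI p r) (TL p s r o K x u x0) k (c (k + 1)) x1 z else 0)) =
        fCRB mB ι p n ez F1 F2 F3 o K x s r U g u v Q1 Q2 Q3 x0 := by
      unfold H989.CrB.fCRB
      refine sum_congr rfl fun k hk => sum_congr rfl fun x1 h1 => sum_congr rfl fun z' h2 => ?_
      have hk1 : k + 1 ≤ K := (mem_Ico.1 hk).2
      have e1 : H736.wE (beI p r) (TL p s r o K x u x0) k (c (k + 1)) x1 z' =
          H736.wE (beI p r) (TT p s r o K x u x0) k (cS p ez U K v F2 x0 (k + 1)) x1 z' :=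
        wE_cut hk1 h1 h2
      rw [e1]
      rfl
    refine (le_of_eq h1).trans ?_
    rw [eE]
    linarith
  · -- hC4
    have h1 : (∑ k ∈ Ico 0 K, Wn K (cx K x).2.2 (cx K x).1 (beI p r) (TL p s r o K x u x0)
        (rs (Pr c0 k) k (c (k + 1))) k) = ∑ k ∈ Ico 0 K, Wn K (cx K x).2.2 (cx K x).1 (beI p r)
        (TL p s r o K x u x0) (rs (Pr c0 k) k (c0 (k + 1))) k :=
      sum_congr rfl fun k hk => Wn_rs_cut (mem_Ico.1 hk).2 _ _ _
    have h2 := Wn_bN (p := p) (s := s) (r := r) (ez := ez) (o := o) (K := K) (x := x) (U := U)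
      (u := u) (v := v) (F2 := F2) (x0 := x0) ht hs hr (P := Pr c0) (fun k w m h => pr_ch k w m h)
      n F1 F3 g Q1 Q2 Q3
    refine (le_of_eq h1).trans (h2.trans ?_)
    rw [eE]
    linarith
  · -- hW0
    have h1 : wS K (nmH K (cx K x).2.2 (cx K x).1 (beI p r) (TL p s r o K x u x0) c) = 0 := by
      unfold H912.wS
      refine sum_eq_zero fun q _ => ?_
      rw [nmH_zero agr, mul_zero]
    rw [h1]
    exact hE0
  · -- hW1
    refine (wS_mono (Y := fun q => vN 0 q ι p n ez F1 F2 F3 o K x s r U g u v Q1 Q2 Q3 x0)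
      fun q => ?_).trans (by rw [eE]; linarith)
    have h1 := nm_vN (n := n) (ez := ez) (F1 := F1) (F2 := F2) (F3 := F3) (g := g) (Q1 := Q1)
      (Q2 := Q2) (Q3 := Q3) (U := U) (v := v) (o := o) (K := K) (x := x) (u := u) (x0 := x0)
      ht ht1 he0.le hs hr 0 q (c := c) (fun k hk x1 a1 z a2 => agr k (by omega) x1 a1 z a2)
    have h2 := mul_nonneg (zero_le_one.trans hbi) (nmD_nn (p := p) (s := s) (r := r) o K x u x0
      c q)
    have h3 := mul_nonneg (zero_le_one.trans hbi) (nmE_nn ht hs hr o K x u x0 c q)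
    linarith
  · -- hW2
    refine (wS_mono (Y := fun q => vN 0 q ι p n ez F1 F2 F3 o K x s r U g u v Q1 Q2 Q3 x0)
      fun q => ?_).trans (by rw [eE]; linarith)
    have h1 := nm_vN (n := n) (ez := ez) (F1 := F1) (F2 := F2) (F3 := F3) (g := g) (Q1 := Q1)
      (Q2 := Q2) (Q3 := Q3) (U := U) (v := v) (o := o) (K := K) (x := x) (u := u) (x0 := x0)
      ht ht1 he0.le hs hr 0 q (c := c) (fun k hk x1 a1 z a2 => agr k (by omega) x1 a1 z a2)
    have h2 := mul_nonneg (zero_le_one.trans hbi) (nmD_nn (p := p) (s := s) (r := r) o K x u x0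
      c q)
    have h3 := mul_nonneg (zero_le_one.trans hbi) (nmE_nn ht hs hr o K x u x0 c q)
    linarith
  · -- hW3
    refine (wS_mono (Y := fun q => bN (q + 1) ι p n ez F1 F2 F3 o K x s r U g u v Q1 Q2 Q3 x0)
      fun q => ?_).trans (by rw [eE]; linarith)
    have h1 : nmB K (cx K x).2.2 (cx K x).1 (beI p r) (TL p s r o K x u x0) (Pr c0) c q =
        nmB K (cx K x).2.2 (cx K x).1 (beI p r) (TL p s r o K x u x0) (Pr c0) c0 q :=
      congrFun (nmB_cut (Pr c0)) q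
    rw [h1]
    exact nmB_bN ht hs hr (P := Pr c0) (fun k w m h => pr_ch k w m h) q n F1 F3 g Q1 Q2 Q3

/-- **The numbers of the pair.** -/
theorem numBC : NumBC 2160000 2 := by
  refine H222.Of.numBC_of sumE sumB ?_
  intro ι _ _ p n ez F1 F2 F3 o K x s r U g u v Q1 Q2 Q3 ht ht1 he0 he01 hk3 hk31 hd hd1 hc he hcP
    hL ho hK hs hr hcls q1 q2 q3 hez f1 f2
  have hl : 0 < p.lam s r := H401.Num.lam_pos (p := p) ht hs hr
  have hbe : 0 < beI p r := Real.rpow_pos_of_pos (div_pos ht (by linarith)) _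
  refine ⟨fun x0 => ?_, fun x0 => add_nonneg (dB_nonneg x x0) (payS_nonneg hbe hl _),
    fun t _ x0 _ z J hz1 _ hJ => pt p n ez F1 F2 F3 o K x s r U g u v Q1 Q2 Q3 ht ht1 he0 hd1 ho hK
      hs hr hcls q2 hez x0 z J hz1 hJ⟩
  have n1 : ∀ q, 0 ≤ vN 0 q ι p n ez F1 F2 F3 o K x s r U g u v Q1 Q2 Q3 x0 :=
    fun q => vN_nn ht hs hr 0 q
  have n2 : ∀ q, 0 ≤ vN 1 q ι p n ez F1 F2 F3 o K x s r U g u v Q1 Q2 Q3 x0 :=
    fun q => vN_nn ht hs hr 1 q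
  have n3 : ∀ q, 0 ≤ oN q ι p n ez F1 F2 F3 o K x s r U g u v Q1 Q2 Q3 x0 :=
    fun q => oN_nn ht hs hr q
  have n4 : ∀ q, 0 ≤ bN q ι p n ez F1 F2 F3 o K x s r U g u v Q1 Q2 Q3 x0 :=
    fun q => bN_nn ht hs hr q n ez F1 F2 F3 o K x U g u v Q1 Q2 Q3 x0
  have n5 : 0 ≤ fCRB mB ι p n ez F1 F2 F3 o K x s r U g u v Q1 Q2 Q3 x0 :=
    crb_nn ht hs hr n ez F1 F2 F3 o K x U g u v Q1 Q2 Q3 x0
  exact add_nonneg (add_nonneg (add_nonneg (wS_nonneg n1) (wS_nonneg n2))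
    (add_nonneg (wS_nonneg n3) (wS_nonneg fun q => n4 (q + 1)))) (add_nonneg (n4 0) n5)

/-- **The leaf of the moving pair `(Bg, Cg)`.** -/
theorem lBCg : LBCg := lbc_end (by norm_num) (by norm_num) numBC

end

end Vale.Agent.P141.H649
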